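import Vale.Agent.P356.Compl

namespace Vale.Agent.Results.P356.NoVolumeSaturation

open Vale.Agent.P356

/-- For gapped Hamiltonians the ground-state entropy of a region stays a volume fraction below
its largest possible value, up to a multiple of the boundary. -/
theorem result : ∀ (q R : ℕ) (J Δ : ℝ), 2 ≤ q → 0 < J → 0 < Δ →
    ∃ c C : ℝ, 0 < c ∧ ∀ L : ℕ, ∀ h : Finset (Site L) → Matrix (Cfg L q) (Cfg L q) ℂ,
      IsAdmissible R J h → ∀ (E₀ : ℝ) (Ω : Cfg L q → ℂ), IsGappedGround (∑ X, h X) E₀ Δ Ω →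
        ∀ A : Finset (Site L), entropy A Ω
          ≤ (Real.log q - c) * (min A.card Aᶜ.card : ℕ) + C * (bdry A).card :=
  fun q R J Δ hq hJ hΔ => no_saturation_min q R J Δ hq hJ hΔ

end Vale.Agent.Results.P356.NoVolumeSaturation
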